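import Vale.Agent.P347.Zero.Sampler.Main
import Vale.Agent.P347.Zero.Bridge.Inst
import Vale.Agent.P347.Zero.EvalBase
import Vale.Agent.P347.Zero.Induction

/-!
The simulated bridge step, from the forward rule and evaluations at lower scales.
-/

open MeasureTheory ProbabilityTheory Filter
open scoped ENNReal Topology

namespace Vale.Agent.P347.Zero

variable {d : ℕ}

/-- Replacing the simulated vector by a nearby one costs their distance. -/
lemma Sim.near {Env : Type} [MeasurableSpace Env] {p p' : (EE d → ℝ) → Env → EE d} {κ : ℝ}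
    {q : ℕ} {e : (EE d → ℝ) → Env → ℝ≥0∞} (h : Sim p κ q e) :
    Sim p' κ q (fun V w => e V w + ‖p V w - p' V w‖ₑ) := by
  obtain ⟨ι, hι, Y, N, hY, hN⟩ := h
  refine ⟨ι, hι, Y, N, hY, fun V hV => ⟨(hN V hV).1, fun w => ⟨((hN V hV).2 w).1, ?_⟩⟩⟩
  have mY := comp_meas hY hV
  have mN := (hN V hV).1
  calc eLpNorm (fun ω => Y V (w, ω) - p' V w - κ • N V (w, ω)) 2 (Zero.noise d ι)
      = eLpNorm ((fun ω => Y V (w, ω) - p V w - κ • N V (w, ω)) +
          fun _ => p V w - p' V w) 2 (Zero.noise d ι) := by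
        congr 1; funext ω; simp only [Pi.add_apply]; abel
    _ ≤ _ := by
        refine (eLpNorm_add_le (by fun_prop) (by fun_prop) one_le_two).trans
          (add_le_add ((hN V hV).2 w).2 ?_)
        rw [eLpNorm_const _ two_ne_zero (NeZero.ne _), measure_univ, ENNReal.one_rpow, mul_one]

lemma fwdEnd_continuous {V : EE d → ℝ} {c : Cfg} {S C κ s : ℝ} (h : SemOk V c S C κ) (hs : 0 ≤ s)
    (hsS : s ≤ S) (y : EE d) : Continuous fun W => fwdEnd V c s y W := by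
  have hdv : ∀ j, Continuous (Dv V (s - (fwdLen s * c.G.node j) ^ 2)) := fun j => by
    obtain ⟨u, w⟩ := scale_mem (h.gOk.node_nonneg j) (h.gOk.node_le j) (v := s) (fwdLen_facts hs).2
    exact Dv_continuous h.drift u (w.trans hsS)
  have hF : Continuous fun p : EE d × (Fin c.G.n → EE d) => fwdF V c s y p.1 p.2 := by
    unfold fwdF; fun_prop
  have ho : Continuous fun p : EE d × (Fin c.G.n → EE d) => fwdOut V c s y p.1 p.2 := by
    unfold fwdOut; fun_prop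
  have hit : ∀ i, Continuous fun W => (fwdF V c s y W)^[i] (fun _ => W) := by
    intro i
    induction i with
    | zero => simpa using (by fun_prop : Continuous fun W : EE d => fun _ : Fin c.G.n => W)
    | succ i ih =>
      simp only [Function.iterate_succ', Function.comp_apply]
      exact hF.comp (continuous_id.prodMk ih)
  exact ho.comp (continuous_id.prodMk (hit c.k))

/-- A simulated end of the forward rule is a simulated exact bridge. -/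
lemma stepSim_of_sim {cfg : Cfg} {C κ s a : ℝ} {q m N : ℕ} (hs : 0 < s) (hs1 : s ≤ 1 / 32)
    (ha : 0 ≤ a) (hn : cfg.G.n = N * m + 1) (hsem : ∀ V : EE d → ℝ, Admissible V → SemOk V cfg s C κ)
    (hfwd : ∀ V : EE d → ℝ, Admissible V → ∀ y : EE d, ∀ ξ, IsFwd V s y (fwdLen s) ξ →
      FwdAt V cfg s y (ENNReal.ofReal (C * ((N : ℝ))⁻¹ ^ m * Real.sqrt d)) (ξ (fwdLen s)))
    (hC : 1 ≤ C) (hκ : 0 ≤ κ)
    (hsim : Sim (fun V (z : EE d × EE d) => z.1 + (2 / 3 * fwdLen s) • fwdEnd V cfg s z.1 z.2)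
      (Real.sqrt (s / 6)) q
      (fun _ z => ENNReal.ofReal (a * (Real.sqrt d + ‖z.1‖ + ‖z.2‖)))) :
    StepSim d s q ((2 * a + 9 * C ^ 2 * (N * m + 2) * ((N : ℝ))⁻¹ ^ m +
      24 * C ^ 2 * κ ^ cfg.k) * (Real.sqrt d + 1)) := by
  have h' := Sim.near (p' := fun V z => midPt V s z.1 z.2) hsim
  refine ⟨_, h', fun V hV y => ?_⟩
  beta_reduce
  have hfl := fwdFlow_spec hV (flowReg hV hs (by linarith)) hs (by linarith) y
  obtain ⟨Ξ, hΞ, e1, e2, -⟩ := hfwd V hV y _ hfl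
  have hTc := hfl.cont _ (Set.right_mem_Icc.2 (fwdLen_nonneg s))
  have hfe := fwd_err (hsem V hV) hs.le le_rfl (G₀ := 3) (by positivity) (by norm_num)
    (fun w hw hwS x => ((driftAll (d := d) (S := s) hs1 V hV).2 w hw hwS x)) hΞ
    hTc.measurable e1 e2
  have hcont : Continuous fun W => fwdEnd V cfg s y W - fwdFlow V s y (fwdLen s) W :=
    (fwdEnd_continuous (hsem V hV) hs.le le_rfl y).sub hTc
  have hR1 : |2 / 3 * fwdLen s| ≤ 1 := by
    rw [abs_of_nonneg (mul_nonneg (by norm_num) (fwdLen_nonneg s))]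
    nlinarith [fwdLen_sq hs.le, fwdLen_nonneg s]
  refine le_trans (eLpNorm_mono_enorm (g := fun W : EE d =>
    (a * (Real.sqrt d + ‖y‖) + a * ‖W‖) +
      ‖fwdEnd V cfg s y W - fwdFlow V s y (fwdLen s) W‖) fun W => ?_) ?_
  · rw [enorm_eq_self, Real.enorm_eq_ofReal (by positivity),
      ENNReal.ofReal_add (by positivity) (norm_nonneg _)]
    refine add_le_add (ENNReal.ofReal_le_ofReal (le_of_eq (by ring))) ?_
    rw [← ofReal_norm]
    refine ENNReal.ofReal_le_ofReal ?_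
    simp only [midPt, add_sub_add_left_eq_sub, ← smul_sub, norm_smul, Real.norm_eq_abs]
    exact mul_le_of_le_one_left (norm_nonneg _) hR1
  refine (eLpNorm_add_le (f := fun W : EE d => a * (Real.sqrt d + ‖y‖) + a * ‖W‖)
    (g := fun W : EE d => ‖fwdEnd V cfg s y W - fwdFlow V s y (fwdLen s) W‖) (by fun_prop)
    hcont.norm.aestronglyMeasurable one_le_two).trans ?_
  refine (add_le_add ((eLpNorm_add_le (f := fun _ : EE d => a * (Real.sqrt d + ‖y‖))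
    (g := fun W : EE d => a * ‖W‖) (by fun_prop) (by fun_prop) one_le_two).trans
    (add_le_add (b := ENNReal.ofReal (a * (Real.sqrt d + ‖y‖)))
      (d := ENNReal.ofReal (a * Real.sqrt d)) (le_of_eq ?_) ?_))
    ((eLpNorm_norm _).trans_le hfe)).trans ?_
  · rw [eLpNorm_const _ two_ne_zero (NeZero.ne _), measure_univ, ENNReal.one_rpow, mul_one,
      Real.enorm_eq_ofReal (by positivity)]
  · refine (eLpNorm_const_smul_le (c := a) (f := fun W : EE d => ‖W‖)).trans ?_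
    rw [Real.enorm_eq_ofReal ha, ENNReal.ofReal_mul ha]
    exact mul_le_mul_right ((eLpNorm_norm _).trans_le eLp_gam.le) _
  rw [← ENNReal.ofReal_add (by positivity) (by positivity),
    ← ENNReal.ofReal_add (by positivity) (by positivity)]
  refine ENNReal.ofReal_le_ofReal ?_
  rw [hn]
  push_cast
  set σ' := Real.sqrt (d : ℝ) with hσ'
  have hsd : 0 ≤ σ' := Real.sqrt_nonneg _
  have hy : 0 ≤ ‖y‖ := norm_nonneg y
  set Z := (σ' + 1) * (1 + ‖y‖) with hZdef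
  have z1 : 2 * σ' + ‖y‖ ≤ 2 * Z := by nlinarith [mul_nonneg hsd hy]
  have z2 : σ' ≤ Z := by nlinarith [mul_nonneg hsd hy]
  have q1 := mul_le_mul_of_nonneg_left z1 ha
  have q2 := mul_le_mul_of_nonneg_left z2
    (show (0 : ℝ) ≤ 9 * C ^ 2 * (N * m + 2) * ((N : ℝ))⁻¹ ^ m by positivity)
  have q3 := mul_le_mul_of_nonneg_left z1 (show (0 : ℝ) ≤ 12 * C ^ 2 * κ ^ cfg.k by positivity)
  linarith

/-- The coefficient of the evaluations at the parameters used by the sampler. -/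
lemma par_A_le {P : Par} (hC : 1 ≤ P.C) (hs : 0 < P.s) (hτ : 0 < P.cfg.τ)
    (hτ2 : P.cfg.τ ^ 2 ≤ 1) (hσ : P.σ = P.t₀⁻¹) (ha : P.cfg.a = P.s) :
    0 ≤ P.A ∧ P.A ≤ 12 * P.C ^ 3 * P.s := by
  have ht : 0 < P.t₀ := by
    have := Real.sqrt_pos.2 hs
    unfold Par.t₀; positivity
  have e2 : P.cfg.τ * Real.sqrt P.s = 2 * P.t₀ := by unfold Par.t₀; ring
  have e : P.A = P.C * P.s * (1 + P.C) + (4 * P.t₀ ^ 2 + 2 * P.C ^ 3 * P.t₀ ^ 2 +
      2 * P.C ^ 2 * P.s + 4 * P.C * P.t₀ ^ 2) := by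
    unfold Par.A
    rw [hσ, ha, mul_assoc P.C P.cfg.τ, e2]
    field_simp
    ring
  have h4 : P.t₀ ^ 2 ≤ P.s / 4 := by
    rw [Par.t₀, div_pow, mul_pow, Real.sq_sqrt hs.le]; nlinarith
  have hC0 : 0 ≤ P.C := by linarith
  have h5 : P.C ^ 2 * P.s ≤ P.C ^ 3 * P.s :=
    mul_le_mul_of_nonneg_right (pow_le_pow_right₀ hC (by norm_num)) hs.le
  have h6 : P.C * P.s ≤ P.C ^ 2 * P.s :=
    mul_le_mul_of_nonneg_right (le_self_pow₀ hC two_ne_zero) hs.le
  have h7 : P.s ≤ P.C * P.s := le_mul_of_one_le_left hs.le hC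
  refine ⟨by rw [e]; positivity, ?_⟩
  rw [e]
  nlinarith [mul_le_mul_of_nonneg_left h4 (pow_nonneg hC0 3), mul_le_mul_of_nonneg_left h4 hC0]

lemma lvC_le (l : ℕ) : lvC l ≤ 1 / 2 := by
  rw [lvC, one_div]
  refine inv_anti₀ two_pos ?_
  calc (2 : ℝ) ≤ 4 ^ 1 := by norm_num
    _ ≤ 4 ^ (l + 1) := pow_le_pow_right₀ (by norm_num) (by omega)

/-- The halvings are available at every level, for rules of every large order. -/
def LevelsOk : Prop :=
  ∀ q₀ : ℕ, 1 ≤ q₀ → ∃ k, q₀ ≤ k ∧ ∃ m₀ : ℕ, ∀ m : ℕ, m₀ ≤ m →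
    ∀ᶠ ε in 𝓝[>] (0 : ℝ), ∀ d : ℕ,
      LevelStep d q₀ ε (gridN (lvBeta q₀ k) ε) (costFn (lvNodes (lvBeta q₀ k) m ε) k)

/-- The forward rule with the top evaluations gives a simulated bridge step. -/
lemma stepSim_of_top (hmid : MidRule d) {C ε s : ℝ} {G L : Rule} {k N m NI q₀ : ℕ} (hC : 1 ≤ C)
    (hG : G.Ok C) (hL : L.Ok C) (hn : G.n = N * m + 1)
    (hfwd : ∀ V : EE d → ℝ, Admissible V → ∀ cfg : Cfg, cfg.G = G → cfg.L = L → ∀ y : EE d,
      ∀ ξ, IsFwd V s y (fwdLen s) ξ →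
        FwdAt V cfg s y (ENNReal.ofReal (C * ((N : ℝ))⁻¹ ^ m * Real.sqrt d)) (ξ (fwdLen s)))
    (hs : 0 < s) (hsε : s ≤ ε)
    (h1 : 8 * C ^ 2 * ε ≤ 1 / 32) (h2 : 1200 * C ^ 3 * ε ≤ 1)
    (h3 : 192 * C ^ 3 * ε ^ ((5 : ℝ) / 8) ≤ lvC (lvNum q₀))
    (htop : ∀ v, 0 < v → v ≤ 2 * ε →
      Eval d v (lvC (lvNum q₀)) (Real.sqrt v * ε ^ (-(3 / 8) : ℝ)) (3 * ε ^ (q₀ : ℝ)) NI) :
    ∃ q : ℕ, q + 1 ≤ costFn (N * m + 1 + L.n + 3) k NI ∧
      StepSim d s q ((6 * ε ^ (q₀ : ℝ) + 9 * C ^ 2 * (N * m + 2) * ((N : ℝ))⁻¹ ^ m +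
        24 * C ^ 2 * (8 * C ^ 2 * ε) ^ k) * (Real.sqrt d + 1)) := by
  have hε : 0 < ε := lt_of_lt_of_le hs hsε
  have hCC2 : C ≤ C ^ 2 := le_self_pow₀ hC two_ne_zero
  have hε256 : ε ≤ 1 / 256 := by nlinarith
  have hCε : C * ε ≤ C ^ 2 * ε := mul_le_mul_of_nonneg_right hCC2 hε.le
  let cfg : Cfg := ⟨G, L, k, Real.sqrt (C * ε), s⟩
  have hτ : 0 < cfg.τ := Real.sqrt_pos.2 (by positivity)
  have hτ2 : cfg.τ ^ 2 = C * ε := Real.sq_sqrt (by positivity)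
  have hτh : cfg.τ ≤ 1 / 2 := by nlinarith
  have hss := Real.sqrt_pos.2 hs
  let P : Par :=
    { cfg := cfg, s := s, σ := (cfg.τ * Real.sqrt s / 2)⁻¹, c := lvC (lvNum q₀), κp := 0,
      σI := Real.sqrt s * ε ^ (-(3 / 8 : ℝ)), σO := 1, EI := 3 * ε ^ (q₀ : ℝ), EO := 0, C := C }
  obtain ⟨hA0, hA⟩ : 0 ≤ P.A ∧ P.A ≤ 12 * C ^ 3 * s :=
    par_A_le (P := P) hC hs hτ (by show cfg.τ ^ 2 ≤ 1; linarith) rfl rfl
  have hA' : P.A ≤ 12 * C ^ 3 * ε :=
    hA.trans (mul_le_mul_of_nonneg_left hsε (by positivity))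
  have hA1 : P.A ≤ 1 / 100 := by linarith
  have hok : P.Ok := by
    refine ⟨hC, hG, hL, hs, show s ≤ 1 by linarith,
      inv_pos.2 (by positivity : 0 < cfg.τ * Real.sqrt s / 2),
      (by positivity : 0 < Real.sqrt s * ε ^ (-(3 / 8 : ℝ))), one_pos,
      (by positivity : 0 ≤ 3 * ε ^ (q₀ : ℝ)), le_rfl, hτ, hτh, hs,
      inv_pos.2 (by positivity), lvC_le _, le_rfl, hA1, ?_⟩
    have e : ε * ε ^ (-(3 / 8 : ℝ)) = ε ^ ((5 : ℝ) / 8) := by
      nth_rw 1 [← Real.rpow_one ε]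
      rw [← Real.rpow_add hε]; norm_num
    show 0 + 8 * (Real.sqrt s * ε ^ (-(3 / 8 : ℝ))) * P.A ≤ lvC (lvNum q₀) * Real.sqrt s / 2
    calc 0 + 8 * (Real.sqrt s * ε ^ (-(3 / 8 : ℝ))) * P.A
        ≤ 0 + 8 * (Real.sqrt s * ε ^ (-(3 / 8 : ℝ))) * (12 * C ^ 3 * ε) := by gcongr
      _ = 192 * C ^ 3 * ε ^ ((5 : ℝ) / 8) * Real.sqrt s / 2 := by rw [← e]; ring
      _ ≤ _ := by gcongr
  have hsem : ∀ V : EE d → ℝ, Admissible V → SemOk V cfg s C (8 * C ^ 2 * ε) := fun V hV =>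
    ⟨driftOk hV (by linarith), hG, hL, hC, hs.le, by nlinarith, hτ, by linarith,
      by rw [hτ2]; linarith, hs, show s ≤ 1 by linarith,
      show 8 * s * C ^ 2 ≤ 8 * C ^ 2 * ε by nlinarith, by linarith⟩
  have hev : ∀ v, P.s / 4 ≤ v → v ≤ P.s → Eval d v P.c P.σI P.EI NI := by
    intro v hv1 hv2
    refine (htop v (lt_of_lt_of_le (show 0 < s / 4 by positivity) hv1)
      (by have : v ≤ s := hv2; linarith)).mono le_rfl ?_
      (by positivity : 0 < Real.sqrt s * ε ^ (-(3 / 8 : ℝ))) le_rfl le_rfl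
    rw [abs_of_nonneg (by positivity)]
    exact mul_le_mul_of_nonneg_right (Real.sqrt_le_sqrt hv2) (by positivity)
  obtain ⟨q, hq', hsim⟩ :=
    hmid P s (8 * C ^ 2 * ε) NI hok le_rfl (driftAll (by linarith)) hsem hev
  refine ⟨q, hq'.trans (stepCost_le (c := cfg) (le_of_eq ?_) le_rfl NI), ?_⟩
  · show G.n + L.n + 3 = _
    rw [hn]
  obtain ⟨e, he1, he2⟩ := stepSim_of_sim (cfg := cfg) (a := 100 * (3 * ε ^ (q₀ : ℝ)) * P.A) hs
    (by linarith) (by positivity) hn hsem (fun V hV => hfwd V hV cfg rfl rfl) hC (by positivity)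
    hsim
  refine ⟨e, he1, fun V hV y => (he2 V hV y).trans (ENNReal.ofReal_le_ofReal ?_)⟩
  refine mul_le_mul_of_nonneg_right (mul_le_mul_of_nonneg_right ?_ (by positivity)) (by positivity)
  have h6 := mul_le_mul_of_nonneg_left hA1 (by positivity : (0 : ℝ) ≤ 600 * ε ^ (q₀ : ℝ))
  show 2 * (100 * (3 * ε ^ (q₀ : ℝ)) * P.A) + _ + 24 * C ^ 2 * (8 * C ^ 2 * ε) ^ k ≤ _
  linarith

/-- The error of a step is a large negative power. -/
lemma err_le {D C η δ ε : ℝ} {A q₀ k m N : ℕ} (hD : 1 ≤ D) (hC : 1 ≤ C) (hε : ε = D ^ (-δ))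
    (hm : 1 ≤ m) (hq : (A : ℝ) + 3 ≤ q₀ * δ) (hk : (A : ℝ) + 3 ≤ k * δ)
    (hηm : (A : ℝ) + 3 ≤ ((m - 1 : ℕ) : ℝ) * η) (hη : 0 ≤ η) (hN : D ^ η ≤ N)
    (hbig : 2 * (6 + 27 * C ^ 2 * m + 24 * C ^ 2 * (8 * C ^ 2) ^ k) ≤ D) :
    (6 * ε ^ (q₀ : ℝ) + 9 * C ^ 2 * (N * m + 2) * ((N : ℝ))⁻¹ ^ m +
      24 * C ^ 2 * (8 * C ^ 2 * ε) ^ k) * (Real.sqrt D + 1) ≤ (D ^ A)⁻¹ := by
  have hD0 : 0 < D := by linarith
  set T := D ^ (-((A : ℝ) + 3)) with hT
  have hT0 : 0 < T := Real.rpow_pos_of_pos hD0 _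
  have t1 : ε ^ (q₀ : ℝ) ≤ T := by
    rw [hT, hε, ← Real.rpow_mul hD0.le]
    exact Real.rpow_le_rpow_of_exponent_le hD (by linarith)
  have t2 : ε ^ k ≤ T := by
    rw [hT, hε, ← Real.rpow_natCast, ← Real.rpow_mul hD0.le]
    exact Real.rpow_le_rpow_of_exponent_le hD (by linarith)
  have hN1 : (1 : ℝ) ≤ N := (Real.one_le_rpow hD hη).trans hN
  have hm1 : (1 : ℝ) ≤ m := by exact_mod_cast hm
  have t3 : ((N : ℝ) * m + 2) * ((N : ℝ))⁻¹ ^ m ≤ 3 * m * T := by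
    have e : ((N : ℝ))⁻¹ ^ m = ((N : ℝ))⁻¹ * ((N : ℝ))⁻¹ ^ (m - 1) := by
      rw [← pow_succ']; congr 1; omega
    calc ((N : ℝ) * m + 2) * ((N : ℝ))⁻¹ ^ m ≤ (3 * m * N) * ((N : ℝ))⁻¹ ^ m := by
          gcongr
          nlinarith
      _ = 3 * m * ((N : ℝ))⁻¹ ^ (m - 1) := by rw [e]; field_simp
      _ ≤ 3 * m * T := by
          gcongr
          calc ((N : ℝ))⁻¹ ^ (m - 1) ≤ ((D ^ η)⁻¹) ^ (m - 1) := by gcongr
            _ ≤ T := by
              rw [hT, ← Real.rpow_neg hD0.le, ← Real.rpow_natCast, ← Real.rpow_mul hD0.le]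
              exact Real.rpow_le_rpow_of_exponent_le hD (by linarith)
  have hsum : 6 * ε ^ (q₀ : ℝ) + 9 * C ^ 2 * (N * m + 2) * ((N : ℝ))⁻¹ ^ m +
      24 * C ^ 2 * (8 * C ^ 2 * ε) ^ k ≤
      (6 + 27 * C ^ 2 * m + 24 * C ^ 2 * (8 * C ^ 2) ^ k) * T := by
    rw [mul_pow]
    have u1 := mul_le_mul_of_nonneg_left t3 (by positivity : (0 : ℝ) ≤ 9 * C ^ 2)
    have u2 := mul_le_mul_of_nonneg_left t2
      (by positivity : (0 : ℝ) ≤ 24 * C ^ 2 * (8 * C ^ 2) ^ k)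
    linarith
  calc _ ≤ (6 + 27 * C ^ 2 * m + 24 * C ^ 2 * (8 * C ^ 2) ^ k) * T * (Real.sqrt D + 1) :=
        mul_le_mul_of_nonneg_right hsum (by positivity)
    _ ≤ (6 + 27 * C ^ 2 * m + 24 * C ^ 2 * (8 * C ^ 2) ^ k) * T * (2 * D) := by
        refine mul_le_mul_of_nonneg_left ?_ (by positivity)
        have : Real.sqrt D ≤ D := Real.sqrt_le_iff.2 ⟨hD0.le, by nlinarith⟩
        linarith
    _ = 2 * (6 + 27 * C ^ 2 * m + 24 * C ^ 2 * (8 * C ^ 2) ^ k) * (D * T) := by ring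
    _ ≤ D * (D * T) := mul_le_mul_of_nonneg_right hbig (by positivity)
    _ ≤ (D ^ A)⁻¹ := by
        rw [← mul_assoc, ← sq, hT, ← Real.rpow_natCast D 2, ← Real.rpow_natCast D A,
          ← Real.rpow_add hD0, ← Real.rpow_neg hD0.le]
        refine Real.rpow_le_rpow_of_exponent_le hD ?_
        push_cast
        linarith

/-- The rules and the levels give the steps used by the sampler. -/
theorem hstep_of_levels (hmid : ∀ d, MidRule d) (hlev : LevelsOk) : HStep := by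
  intro δ hδ A
  have hA : (0 : ℝ) ≤ A := Nat.cast_nonneg A
  obtain ⟨q₀, hq₀⟩ := exists_nat_ge (((A : ℝ) + 3) / δ)
  rw [div_le_iff₀ hδ] at hq₀
  have hq : 1 ≤ q₀ := Nat.one_le_iff_ne_zero.2 fun h => by
    rw [h] at hq₀; push_cast at hq₀; linarith
  obtain ⟨k, hqk, m₀, hlev⟩ := hlev q₀ hq
  set β := lvBeta q₀ k with hβdef
  have hβ : 0 < β := lvBeta_pos q₀ k
  obtain ⟨j, hj⟩ := exists_nat_ge (((A : ℝ) + 3) / (δ * β))
  rw [div_le_iff₀ (mul_pos hδ hβ)] at hj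
  set m := max m₀ (j + 2) with hmdef
  have hjm : j + 2 ≤ m := le_max_right _ _
  obtain ⟨C, hC, L, hLn, hL, -, hrule⟩ := rules_accurate m (by omega)
  have heps : Tendsto (fun d : ℕ => (d : ℝ) ^ (-δ)) atTop (𝓝 0) :=
    (tendsto_rpow_neg_atTop hδ).comp tendsto_natCast_atTop_atTop
  have heps' : Tendsto (fun d : ℕ => (d : ℝ) ^ (-δ)) atTop (𝓝[>] 0) :=
    tendsto_nhdsWithin_iff.2 ⟨heps, (eventually_ge_atTop 1).mono fun d hd =>
      Real.rpow_pos_of_pos (by exact_mod_cast hd) _⟩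
  have heps58 : Tendsto (fun d : ℕ => 192 * C ^ 3 * ((d : ℝ) ^ (-δ)) ^ ((5 : ℝ) / 8)) atTop
      (𝓝 0) := by
    simpa using (heps.rpow_const (p := (5 : ℝ) / 8) (Or.inr (by norm_num))).const_mul (192 * C ^ 3)
  filter_upwards [eventually_ge_atTop 16,
    heps'.eventually (hlev m (le_max_left _ _)), heps'.eventually (levels_eventually hq m k),
    heps.eventually (eventually_le_nhds (show (0 : ℝ) < 1 / (1200 * C ^ 3) by positivity)),
    heps.eventually (eventually_le_nhds (show (0 : ℝ) < 1 / (256 * C ^ 2) by positivity)),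
    heps58.eventually (eventually_le_nhds
      (show (0 : ℝ) < lvC (lvNum q₀) from inv_pos.2 (by positivity))),
    tendsto_natCast_atTop_atTop.eventually_ge_atTop
      (2 * (6 + 27 * C ^ 2 * (m : ℝ) + 24 * C ^ 2 * (8 * C ^ 2) ^ k))]
    with d hd16 hstep hside he1 he2 he3 hdc
  intro s hs1 hs2
  obtain ⟨hεs, hh, hbot, hJ, hJ2, hcost⟩ := hside
  have hD16 : (16 : ℝ) ≤ d := by exact_mod_cast hd16
  have hD0 : (0 : ℝ) < d := by linarith
  have hε : 0 < (d : ℝ) ^ (-δ) := Real.rpow_pos_of_pos hD0 _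
  have hs : 0 < s := lt_of_lt_of_le (by positivity) hs1
  have h1 : 8 * C ^ 2 * (d : ℝ) ^ (-δ) ≤ 1 / 32 := by
    rw [le_div_iff₀ (by positivity)] at he2; linarith
  have h2 : 1200 * C ^ 3 * (d : ℝ) ^ (-δ) ≤ 1 := by
    rw [le_div_iff₀ (by positivity)] at he1; linarith
  obtain ⟨G, hGn, hG, hfw⟩ := hrule (gridN β ((d : ℝ) ^ (-δ))) hJ
  obtain ⟨q, hqle, e, hsim, he⟩ := stepSim_of_top (hmid d) (k := k) hC hG hL hGn
    (fun V hV cfg eG eL y ξ hξ => ((hfw hV cfg eG eL).2 s hs (by linarith) y).1 ξ hξ)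
    hs hs2 h1 h2 he3
    (fun v hv hv2 => eval_top hq hJ hε hεs hh hbot hJ2 (hstep d) hv hv2)
  rw [hLn] at hqle
  refine ⟨q, ?_, e, hsim, fun V hV y => (he V hV y).trans (ENNReal.ofReal_le_ofReal
    (mul_le_mul_of_nonneg_right ?_ (by positivity)))⟩
  · refine (Nat.cast_le.2 ((Nat.le_succ q).trans hqle)).trans (hcost.trans (le_of_eq ?_))
    rw [← Real.rpow_mul hD0.le]
    ring_nf
  · have hk : (A : ℝ) + 3 ≤ k * δ :=
      hq₀.trans (mul_le_mul_of_nonneg_right (by exact_mod_cast hqk) hδ.le)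
    have hm1 : (j : ℝ) ≤ ((m - 1 : ℕ) : ℝ) := by exact_mod_cast (by omega : j ≤ m - 1)
    refine err_le (η := δ * β) (by linarith) hC rfl (by omega) hq₀ hk
      (hj.trans (mul_le_mul_of_nonneg_right hm1 (by positivity))) (by positivity) ?_ hdc
    refine le_trans (le_of_eq ?_) (Nat.le_ceil _)
    rw [← Real.rpow_mul hD0.le]
    ring_nf

/-- Every positive power of the dimension suffices once the rules and the levels are available. -/
theorem samples_of_levels (hmid : ∀ d, MidRule d) (hlev : LevelsOk) {γ : ℝ} (hγ : 0 < γ) :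
    ∀ᶠ d : ℕ in atTop, ∃ q : ℕ, (q : ℝ) ≤ (d : ℝ) ^ γ ∧ Samples d q :=
  samples_of_steps (hstep_of_levels hmid hlev) hγ

/-- The exponent is zero once the rules and the levels are available. -/
theorem gammaStar_eq_zero_of_levels (hmid : ∀ d, MidRule d) (hlev : LevelsOk) : gammaStar = 0 :=
  gammaStar_eq_zero_of_steps (hstep_of_levels hmid hlev)

end Vale.Agent.P347.Zero
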