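import Vale.Agent.P347.Zero.Sampler.Law

/-!
Simulated steps coupled with exact ones: the distance to the law at the current scale contracts.
-/

open MeasureTheory ProbabilityTheory Set
open scoped ENNReal

namespace Vale.Agent.P347.Zero

variable {d : ℕ}

/-- Some computation with q queries is within E in L² of the law at scale s, in a coupling. -/
def Reach (d : ℕ) (s : ℝ) (q : ℕ) (E : ℝ) : Prop :=
  ∃ (Ω : Type) (_ : MeasurableSpace Ω) (_ : StandardBorelSpace Ω) (ν : Measure Ω)
    (F : (EE d → ℝ) → Ω → EE d), IsProbabilityMeasure ν ∧ Sched.Comp q F ∧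
    ∀ V : EE d → ℝ, Admissible V → ∃ ρ : Measure (Ω × EE d), ρ.map Prod.fst = ν ∧
      ρ.map Prod.snd = piS V s ∧
      eLpNorm (fun z : Ω × EE d => F V z.1 - z.2) 2 ρ ≤ ENNReal.ofReal E

lemma Reach.mono {s : ℝ} {q : ℕ} {E E' : ℝ} (h : Reach d s q E) (hE : E ≤ E') :
    Reach d s q E' := by
  obtain ⟨Ω, mΩ, sΩ, ν, F, hν, hF, hc⟩ := h
  refine ⟨Ω, mΩ, sΩ, ν, F, hν, hF, fun V hV => ?_⟩
  obtain ⟨ρ, h1, h2, h3⟩ := hc V hV
  exact ⟨ρ, h1, h2, h3.trans (ENNReal.ofReal_le_ofReal hE)⟩

/-- The start at the origin. -/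
theorem reach_zero (d : ℕ) {s : ℝ} (hs1 : s ≤ 1) : Reach d s 0 (2 * Real.sqrt d) := by
  refine ⟨EE d, inferInstance, inferInstance, gam d, fun _ _ => 0, inferInstance,
    Sched.comp_pure (measurable_const (a := (0 : EE d))), fun V hV => ?_⟩
  have := piS_prob hV s
  refine ⟨(gam d).prod (piS V s), measurePreserving_fst.map_eq, measurePreserving_snd.map_eq, ?_⟩
  simp only [zero_sub]
  refine (eLpNorm_neg (fun z : EE d × EE d => z.2) 2 _).trans_le ?_
  exact (eLpNorm_comp_measurePreserving (g := id) aestronglyMeasurable_id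
    (measurePreserving_snd (μ := gam d) (ν := piS V s))).trans_le (piS_moment hV hs1)

/-- An exactly standard vector whatever the first coordinate is independent of it. -/
lemma map_pair_indep {α β : Type} [MeasurableSpace α] [MeasurableSpace β] {μ : Measure α}
    {ν : Measure β} [IsProbabilityMeasure μ] [IsProbabilityMeasure ν] {A : α → EE d}
    {B : α × β → EE d} (hA : Measurable A) (hB : Measurable B)
    (h : ∀ x, ν.map (fun y => B (x, y)) = gam d) :
    (μ.prod ν).map (fun z => (A z.1, B z)) = (μ.map A).prod (gam d) := by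
  classical
  have : IsProbabilityMeasure (μ.map A) := Measure.isProbabilityMeasure_map hA.aemeasurable
  refine (Measure.prod_eq fun S T hS hT => ?_).symm
  have hm : Measurable fun z : α × β => (A z.1, B z) := (hA.comp measurable_fst).prodMk hB
  rw [Measure.map_apply hm (hS.prod hT), Measure.prod_apply (hm (hS.prod hT))]
  have e : ∀ x, ν (Prod.mk x ⁻¹' ((fun z : α × β => (A z.1, B z)) ⁻¹' S ×ˢ T)) =
      (A ⁻¹' S).indicator (fun _ => gam d T) x := by
    intro x
    by_cases hx : A x ∈ S
    · rw [indicator_of_mem (show x ∈ A ⁻¹' S from hx), ← h x, Measure.map_apply (by fun_prop) hT]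
      congr 1
      ext y
      simp [hx]
    · rw [indicator_of_notMem (show x ∉ A ⁻¹' S from hx)]
      convert measure_empty (μ := ν)
      ext y
      simp [hx]
  simp only [e]
  rw [lintegral_indicator (hA hS), Measure.map_apply hA hS]
  simp [mul_comm]

/-- One simulated step. -/
theorem Reach.step {s : ℝ} {q q' : ℕ} {E δ : ℝ} (hR : Reach d s q E) (hE : 0 ≤ E) (hδ : 0 ≤ δ)
    (hreg : ∀ V : EE d → ℝ, Admissible V → FlowReg V s) (hs : 0 < s) (hs1 : s ≤ 1 / 16)
    (hsim : StepSim d s q' δ) {κ : ℝ} (hκ : Real.sqrt (s / 6) ≤ κ) :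
    Reach d (s / 3 + κ ^ 2) (q + q')
      ((1 - s / 8) * E + δ * (1 + 2 * Real.sqrt d + E)) := by
  obtain ⟨Ω, mΩ, sΩ, ν, F, hν, hF, hc⟩ := hR
  obtain ⟨e, hS, he⟩ := hsim
  have hs2 : 0 < Real.sqrt (s / 6) := Real.sqrt_pos.2 (by linarith)
  have hκ0 : 0 < κ := lt_of_lt_of_le (by positivity) hκ
  obtain ⟨ι, hι, Y, N, hY, hN⟩ := hS.noise (κ' := κ) (by rwa [abs_of_pos (by positivity)]) hκ0
  have sB : StandardBorelSpace (EE d × (ι → EE d)) := StandardBorelSpace.prod
  refine ⟨Ω × (EE d × (ι → EE d)), inferInstance, StandardBorelSpace.prod,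
    ν.prod ((gam d).prod (noise d ι)), fun V z => Y V ((F V z.1, z.2.1), z.2.2), inferInstance,
    Sched.comp_bind (Sched.comp_pre hF measurable_fst)
      (Sched.comp_pre hY (π := fun u : (Ω × (EE d × (ι → EE d))) × EE d =>
        ((u.2, u.1.2.1), u.1.2.2)) (by fun_prop)), fun V hV => ?_⟩
  obtain ⟨ρ, h1, h2, h3⟩ := hc V hV
  obtain ⟨mN, hN⟩ := hN V hV
  have mF := comp_meas hF hV
  have mY := comp_meas hY hV
  have hρ : IsProbabilityMeasure ρ := by
    refine ⟨?_⟩
    rw [← preimage_univ (f := (Prod.fst : Ω × EE d → Ω)),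
      ← Measure.map_apply measurable_fst MeasurableSet.univ, h1, measure_univ]
  have hpc := midPt_continuous hV (hreg V hV) hs hs1
  set p := fun z : EE d × EE d => midPt V s z.1 z.2 with hp
  have mp : Measurable p := hpc.measurable
  let n : (Ω × EE d) × (EE d × (ι → EE d)) → EE d := fun z => N V ((F V z.1.1, z.2.1), z.2.2)
  let τ : (Ω × EE d) × (EE d × (ι → EE d)) → (Ω × (EE d × (ι → EE d))) × EE d :=
    fun z => ((z.1.1, z.2), p (z.1.2, z.2.1) + κ • n z)
  have mn : Measurable n := by fun_prop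
  have mτ : Measurable τ := by fun_prop
  refine ⟨(ρ.prod ((gam d).prod (noise d ι))).map τ, ?_, ?_, ?_⟩
  · rw [Measure.map_map measurable_fst mτ]
    conv_rhs => rw [← h1, ← Measure.map_id (μ := (gam d).prod (noise d ι)),
      Measure.map_prod_map _ _ measurable_fst measurable_id]
    rfl
  · rw [Measure.map_map measurable_snd mτ]
    have ha := measurePreserving_prodAssoc ρ (gam d) (noise d ι)
    rw [← ha.map_eq, Measure.map_map (measurable_snd.comp mτ) ha.measurable]
    have hind := map_pair_indep (μ := ρ.prod (gam d)) (ν := noise d ι)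
      (A := fun u : (Ω × EE d) × EE d => p (u.1.2, u.2))
      (B := fun z : ((Ω × EE d) × EE d) × (ι → EE d) => N V ((F V z.1.1.1, z.1.2), z.2))
      (by fun_prop) (by fun_prop) (fun u => (hN (F V u.1.1, u.2)).1)
    have hA : (ρ.prod (gam d)).map (fun u : (Ω × EE d) × EE d => p (u.1.2, u.2)) =
        midLaw V s := by
      rw [midLaw, ← h2, show gam d = (gam d).map id from
        Measure.map_id.symm, Measure.map_prod_map _ _ measurable_snd measurable_id,
        Measure.map_id, Measure.map_map mp (by fun_prop)]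
      rfl
    rw [hA] at hind
    rw [← blur_mid_ge hV (hreg V hV) hs hs1 (v := κ ^ 2)
      ((Real.sq_sqrt (by linarith : 0 ≤ s / 6)).symm.trans_le
        (pow_le_pow_left₀ (Real.sqrt_nonneg _) hκ 2)), blurM, ← hind,
      Measure.map_map (by fun_prop) (by fun_prop)]
    congr 1
    funext z
    simp [τ, n, MeasurableEquiv.prodAssoc, Real.sqrt_sq hκ0.le]
  · rw [eLpNorm_map_measure (by fun_prop) mτ.aemeasurable]
    set A : (Ω × EE d) × (EE d × (ι → EE d)) → EE d :=
      fun z => Y V ((F V z.1.1, z.2.1), z.2.2) - p (F V z.1.1, z.2.1) - κ • n z with hA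
    set B : (Ω × EE d) × (EE d × (ι → EE d)) → EE d :=
      fun z => p (F V z.1.1, z.2.1) - p (z.1.2, z.2.1) with hB
    have e1 : ((fun z : (Ω × (EE d × (ι → EE d))) × EE d =>
        Y V ((F V z.1.1, z.1.2.1), z.1.2.2) - z.2) ∘ τ) = A + B := by
      funext z
      simp only [hA, hB, τ, Function.comp_apply, Pi.add_apply]
      abel
    rw [e1]
    have mA : Measurable A := by fun_prop
    have mB : Measurable B := by fun_prop
    refine (eLpNorm_add_le mA.aestronglyMeasurable mB.aestronglyMeasurable one_le_two).trans ?_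
    have hc0 : 0 ≤ 1 - s / 8 := by linarith
    rw [add_comm ((1 - s / 8) * E), ENNReal.ofReal_add (by positivity) (by positivity)]
    refine add_le_add ?_ ?_
    · refine (eLpNorm_prod_le mA fun x => eLpNorm_prod_le (mA.comp measurable_prodMk_left)
        fun W => (hN (F V x.1, W)).2).trans ?_
      refine le_trans (eLpNorm_mono_enorm (g := fun x : Ω × EE d =>
        δ • ((1 : ℝ) + (‖F V x.1 - x.2‖ + ‖x.2‖))) fun x => ?_) ?_
      · rw [enorm_eq_self, ← ofReal_norm]
        refine (he V hV (F V x.1)).trans (ENNReal.ofReal_le_ofReal ?_)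
        have h6 : ‖F V x.1‖ ≤ ‖F V x.1 - x.2‖ + ‖x.2‖ := norm_le_norm_sub_add _ _
        rw [Real.norm_of_nonneg (by positivity), smul_eq_mul]
        exact mul_le_mul_of_nonneg_left (by linarith) hδ
      refine (eLpNorm_const_smul_le (c := δ)
        (f := fun x : Ω × EE d => (1 : ℝ) + (‖F V x.1 - x.2‖ + ‖x.2‖))).trans ?_
      rw [ENNReal.ofReal_mul hδ, ← ofReal_norm, Real.norm_of_nonneg hδ]
      refine mul_le_mul_right ((eLpNorm_add_le (f := fun _ : Ω × EE d => (1 : ℝ))
        (g := fun x : Ω × EE d => ‖F V x.1 - x.2‖ + ‖x.2‖) (by fun_prop) (by fun_prop)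
        one_le_two).trans ?_) _
      rw [show 1 + 2 * Real.sqrt d + E = 1 + (E + 2 * Real.sqrt d) by ring,
        ENNReal.ofReal_add zero_le_one (by positivity), ENNReal.ofReal_add hE (by positivity)]
      refine add_le_add ?_ ((eLpNorm_add_le (f := fun x : Ω × EE d => ‖F V x.1 - x.2‖)
        (g := fun x : Ω × EE d => ‖x.2‖) (by fun_prop) (by fun_prop) one_le_two).trans
        (add_le_add ?_ ?_))
      · rw [eLpNorm_const _ two_ne_zero (NeZero.ne ρ)]
        simp
      · exact (eLpNorm_norm (fun x : Ω × EE d => F V x.1 - x.2)).trans_le h3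
      · refine (eLpNorm_norm (fun x : Ω × EE d => x.2)).trans_le ?_
        refine le_trans (le_of_eq ?_) (piS_moment hV (by linarith : s ≤ 1))
        rw [← h2, eLpNorm_map_measure aestronglyMeasurable_id measurable_snd.aemeasurable]
        rfl
    · refine (eLpNorm_le_mul_eLpNorm_of_ae_le_mul (g := fun z : (Ω × EE d) × (EE d × (ι → EE d)) =>
        F V z.1.1 - z.1.2) (c := 1 - s / 8)
        (ae_of_all _ fun z => midPt_contract hV (hreg V hV) hs hs1 _ _ _) 2).trans ?_
      rw [ENNReal.ofReal_mul hc0]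
      refine mul_le_mul_right ?_ _
      exact (eLpNorm_comp_measurePreserving (g := fun x : Ω × EE d => F V x.1 - x.2) (by fun_prop)
        (measurePreserving_fst (μ := ρ) (ν := (gam d).prod (noise d ι)))).trans_le h3

end Vale.Agent.P347.Zero
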