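import Vale.Agent.P347.Zero.Sampler.Coupling
import Vale.Agent.P347.MainSum

/-!
The last blur turns the L² distance into total variation.
-/

open MeasureTheory ProbabilityTheory Set
open scoped ENNReal

namespace Vale.Agent.P347.Zero

variable {d : ℕ}

/-- A bounded continuous function blurred at variance s is (1/√s)-Lipschitz. -/
lemma gs_lip {s : ℝ} (hs : 0 < s) {ψ : EE d → ℝ} (hψ : Continuous ψ) (h1 : ∀ x, |ψ x| ≤ 1)
    (x y : EE d) : |Gs s ψ x - Gs s ψ y| ≤ 1 / Real.sqrt s * ‖x - y‖ := by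
  obtain ⟨hb, hd⟩ := Chain.gs_smooth (v := ψ)
    ⟨hψ, 1, fun z => by rw [Real.norm_eq_abs]; exact h1 z⟩ hs
    (K := 1) fun z => by rw [Real.norm_eq_abs]; exact h1 z
  rw [← Real.norm_eq_abs]
  exact convex_univ.norm_image_sub_le_of_norm_fderiv_le
    (fun w _ => hb.1.differentiable one_ne_zero w)
    (fun w _ => (Chain.norm_le_hsn _).trans (hd w)) (mem_univ y) (mem_univ x)

lemma integral_blur (μ : Measure (EE d)) [IsProbabilityMeasure μ] (s : ℝ) {ψ : EE d → ℝ}
    (hψ : Continuous ψ) (h1 : ∀ x, |ψ x| ≤ 1) :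
    ∫ y, ψ y ∂((μ.prod (gam d)).map fun p => p.1 + Real.sqrt s • p.2) = ∫ x, Gs s ψ x ∂μ := by
  have hm : Measurable fun p : EE d × EE d => p.1 + Real.sqrt s • p.2 := by fun_prop
  have hint : Integrable (fun p : EE d × EE d => ψ (p.1 + Real.sqrt s • p.2)) (μ.prod (gam d)) :=
    Integrable.of_bound (hψ.measurable.comp hm).aestronglyMeasurable 1
      (ae_of_all _ fun z => (Real.norm_eq_abs _).le.trans (h1 _))
  rw [integral_map hm.aemeasurable hψ.aestronglyMeasurable, integral_prod _ hint]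
  rfl

/-- A computation near the law at scale τ gives an algorithm. -/
theorem Reach.samples {τ : ℝ} {q : ℕ} {E : ℝ} (hR : Reach d τ q E) (hE : 0 ≤ E) (hτ : 0 < τ)
    (hb : E / Real.sqrt τ + 2 * d * Real.sqrt (2 * τ) ≤ 1 / 10) : Samples d q := by
  obtain ⟨Ω, mΩ, sΩ, ν, F, hν, hF, hc⟩ := hR
  have sP : StandardBorelSpace (Ω × EE d) := StandardBorelSpace.prod
  have hF' : Sched.Comp q (fun V (z : Ω × EE d) => F V z.1 + Real.sqrt τ • z.2) :=
    Sched.comp_post (h := fun z : (Ω × EE d) × EE d => z.2 + Real.sqrt τ • z.1.2)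
      (Sched.comp_pre hF measurable_fst) (by fun_prop)
  refine Sched.samples_of_comp (ν.prod (gam d)) hF' fun V hV B hB => ?_
  obtain ⟨ρ, h1, h2, h3⟩ := hc V hV
  have hρ : IsProbabilityMeasure ρ := by
    refine ⟨?_⟩
    rw [← preimage_univ (f := (Prod.fst : Ω × EE d → Ω)),
      ← Measure.map_apply measurable_fst MeasurableSet.univ, h1, measure_univ]
  have mF := comp_meas hF hV
  have mF' := comp_meas hF' hV
  have := gibbs_prob hV
  have := piS_prob hV τ
  have : IsProbabilityMeasure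
      ((ν.prod (gam d)).map fun z : Ω × EE d => F V z.1 + Real.sqrt τ • z.2) :=
    Measure.isProbabilityMeasure_map mF'.aemeasurable
  have key := tv_of_tests ((ν.prod (gam d)).map fun z : Ω × EE d => F V z.1 + Real.sqrt τ • z.2)
    (gibbs V) (1 / 10) (fun ψ hψ hψ1 => ?_) B hB
  · rwa [Measure.map_apply mF' hB] at key
  obtain ⟨hGc, hG1⟩ := gs_bc τ hψ hψ1
  have hi : ∀ {X : Type} [MeasurableSpace X] (μ : Measure X) [IsProbabilityMeasure μ]
      {f : X → EE d}, Measurable f → Integrable (fun x => Gs τ ψ (f x)) μ :=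
    fun μ _ _ hf => Integrable.of_bound (hGc.measurable.comp hf).aestronglyMeasurable 1
      (ae_of_all _ fun x => (Real.norm_eq_abs _).le.trans (hG1 _))
  have a1 : ∫ x, ψ x ∂((ν.prod (gam d)).map fun z : Ω × EE d => F V z.1 + Real.sqrt τ • z.2) =
      ∫ z, Gs τ ψ (F V z.1) ∂ρ := by
    have hint : Integrable (fun z : Ω × EE d => ψ (F V z.1 + Real.sqrt τ • z.2))
        (ν.prod (gam d)) :=
      Integrable.of_bound (hψ.measurable.comp mF').aestronglyMeasurable 1
        (ae_of_all _ fun z => (Real.norm_eq_abs _).le.trans (hψ1 _))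
    rw [integral_map mF'.aemeasurable hψ.aestronglyMeasurable, integral_prod _ hint, ← h1,
      integral_map measurable_fst.aemeasurable]
    · rfl
    · rw [h1]; exact (hi ν mF).aestronglyMeasurable
  have a2 : ∫ x, Gs (2 * τ) ψ x ∂gibbs V = ∫ z, Gs τ ψ z.2 ∂ρ := by
    rw [← integral_blur (gibbs V) (2 * τ) hψ hψ1, show
      ((gibbs V).prod (gam d)).map (fun p => p.1 + Real.sqrt (2 * τ) • p.2) = piS V (τ + τ) by
        rw [two_mul]; rfl,
      piS, ← blurM_blurM (gibbs V) hτ.le hτ, ← piS, blurM, integral_blur (piS V τ) τ hψ hψ1, ← h2,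
      integral_map measurable_snd.aemeasurable hGc.aestronglyMeasurable]
  have a3 : |(∫ z, Gs τ ψ (F V z.1) ∂ρ) - ∫ z, Gs τ ψ z.2 ∂ρ| ≤ E / Real.sqrt τ := by
    have hm : MemLp (fun z : Ω × EE d => F V z.1 - z.2) 2 ρ :=
      ⟨(by fun_prop : Measurable fun z : Ω × EE d => F V z.1 - z.2).aestronglyMeasurable,
        h3.trans_lt ENNReal.ofReal_lt_top⟩
    have hn : Integrable (fun z : Ω × EE d => ‖F V z.1 - z.2‖) ρ :=
      (hm.integrable one_le_two).norm
    rw [← integral_sub (hi ρ (by fun_prop)) (hi ρ measurable_snd)]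
    refine abs_integral_le_integral_abs.trans ?_
    calc ∫ z, |Gs τ ψ (F V z.1) - Gs τ ψ z.2| ∂ρ
        ≤ ∫ z, 1 / Real.sqrt τ * ‖F V z.1 - z.2‖ ∂ρ :=
          integral_mono ((hi ρ (by fun_prop)).sub (hi ρ measurable_snd)).abs (hn.const_mul _)
            fun z => gs_lip hτ hψ hψ1 _ _
      _ ≤ 1 / Real.sqrt τ * E := by
          rw [integral_const_mul]
          refine mul_le_mul_of_nonneg_left ?_ (by positivity)
          rw [integral_norm_eq_lintegral_enorm hm.1, ← eLpNorm_one_eq_lintegral_enorm]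
          exact ENNReal.toReal_le_of_le_ofReal hE
            ((eLpNorm_le_eLpNorm_of_exponent_le one_le_two hm.1).trans h3)
      _ = E / Real.sqrt τ := by ring
  have a4 := blur hV (by positivity : 0 ≤ 2 * τ) hψ hψ1
  rw [a1]
  rw [a2] at a4
  exact (abs_sub_le _ _ _).trans (le_trans (add_le_add a3 a4) hb)

end Vale.Agent.P347.Zero
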