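import Vale.Agent.P347.Zero.Sim
import Vale.Agent.P347.Zero.SemDefs

/-!
What the sampler uses of the recursion: the bridge point above a base point can be simulated with
small error at its own noise.
-/

open MeasureTheory Filter
open scoped ENNReal

namespace Vale.Agent.P347.Zero

variable {d : ℕ}

open Classical in
/-- A chosen exact plain flow from y at scale s. -/
noncomputable def fwdFlow (V : EE d → ℝ) (s : ℝ) (y : EE d) : ℝ → EE d → EE d :=
  if h : ∃ ξ, IsFwd V s y (fwdLen s) ξ then h.choose else fun _ W => W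

/-- The centre of the bridge at scale s/2: one third of y plus two thirds of the end, at scale
s/4, of the exact plain flow from y with input W. -/
noncomputable def midPt (V : EE d → ℝ) (s : ℝ) (y W : EE d) : EE d :=
  y + (2 / 3 * fwdLen s) • fwdFlow V s y (fwdLen s) W

/-- The bridge is simulated with q queries at its own noise √(s/6), up to δ in L². -/
def StepSim (d : ℕ) (s : ℝ) (q : ℕ) (δ : ℝ) : Prop :=
  ∃ e : (EE d → ℝ) → EE d × EE d → ℝ≥0∞,
    Sim (fun V z => midPt V s z.1 z.2) (Real.sqrt (s / 6)) q e ∧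
      ∀ V, Admissible V → ∀ y, eLpNorm (fun W => e V (y, W)) 2 (gam d) ≤
        ENNReal.ofReal (δ * (1 + ‖y‖))

/-- Steps of polynomially small error cost d^δ queries, for every δ. -/
def HStep : Prop :=
  ∀ δ : ℝ, 0 < δ → ∀ A : ℕ, ∀ᶠ d : ℕ in atTop, ∀ s : ℝ, ((d : ℝ) ^ 12)⁻¹ ≤ s →
    s ≤ (d : ℝ) ^ (-δ) → ∃ q : ℕ, (q : ℝ) ≤ (d : ℝ) ^ δ ∧ StepSim d s q ((d : ℝ) ^ A)⁻¹

end Vale.Agent.P347.Zero
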