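import Vale.Agent.P347.Zero.Sampler.Interface
import Vale.Agent.P347.Zero.FwdExists
import Vale.Agent.P347.Zero.HeatSemi
import Vale.Agent.P347.Zero.Bridge.Common
import Vale.Agent.P347.Zero.Bridge.Law

/-!
The Gibbs law blurred at variance s, and what one exact step does to it.
-/

open MeasureTheory ProbabilityTheory Set
open scoped RealInnerProductSpace ENNReal NNReal

namespace Vale.Agent.P347.Zero

variable {d : ℕ} {V : EE d → ℝ} {s : ℝ}

/-- A law blurred at variance s. -/
noncomputable def blurM (μ : Measure (EE d)) (s : ℝ) : Measure (EE d) :=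
  (μ.prod (gam d)).map fun p => p.1 + Real.sqrt s • p.2

/-- The law at scale s. -/
noncomputable def piS (V : EE d → ℝ) (s : ℝ) : Measure (EE d) := blurM (gibbs V) s

lemma blurM_prob (μ : Measure (EE d)) [IsProbabilityMeasure μ] (s : ℝ) :
    IsProbabilityMeasure (blurM μ s) :=
  Measure.isProbabilityMeasure_map (by fun_prop)

lemma piS_prob (hV : Admissible V) (s : ℝ) : IsProbabilityMeasure (piS V s) := by
  have := gibbs_prob hV
  exact blurM_prob _ s

lemma fwdLen_sq (hs : 0 ≤ s) : fwdLen s ^ 2 = 3 * s / 4 := Real.sq_sqrt (by positivity)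

lemma fwdLen_nonneg (s : ℝ) : 0 ≤ fwdLen s := Real.sqrt_nonneg _

lemma fwdFlow_spec (hV : Admissible V) (hf : FlowReg V s) (hs : 0 < s) (hs1 : s ≤ 1 / 16)
    (y : EE d) : IsFwd V s y (fwdLen s) (fwdFlow V s y) := by
  have h := exists_fwd hV hf hs hs1 (fwdLen_nonneg s) (fwdLen_sq hs.le).le y
  rw [fwdFlow, dif_pos h]
  exact h.choose_spec

lemma midPt_contract (hV : Admissible V) (hf : FlowReg V s) (hs : 0 < s) (hs1 : s ≤ 1 / 16)
    (y y' W : EE d) : ‖midPt V s y W - midPt V s y' W‖ ≤ (1 - s / 8) * ‖y - y'‖ := by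
  have h := fwd_contract hV hf hs hs1 (fwdLen_nonneg s) (fwdLen_sq hs.le).le
    (fwdFlow_spec hV hf hs hs1 y) (fwdFlow_spec hV hf hs hs1 y') W
  rw [fwdLen_sq hs.le] at h
  set D := (y + fwdLen s • fwdFlow V s y (fwdLen s) W) -
    (y' + fwdLen s • fwdFlow V s y' (fwdLen s) W)
  have e : midPt V s y W - midPt V s y' W = (1 / 3 : ℝ) • (y - y') + (2 / 3 : ℝ) • D := by
    simp only [midPt, D]; module
  rw [e]
  refine (norm_add_le _ _).trans ?_
  rw [norm_smul, norm_smul, Real.norm_of_nonneg (by norm_num), Real.norm_of_nonneg (by norm_num)]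
  linarith

lemma midPt_continuous (hV : Admissible V) (hf : FlowReg V s) (hs : 0 < s) (hs1 : s ≤ 1 / 16) :
    Continuous fun z : EE d × EE d => midPt V s z.1 z.2 := by
  refine continuous_prod_of_continuous_lipschitzWith (fun z : EE d × EE d => midPt V s z.1 z.2)
    1 (fun y => ?_) fun W => LipschitzWith.of_dist_le_mul fun a b => ?_
  · show Continuous fun W => y + (2 / 3 * fwdLen s) • fwdFlow V s y (fwdLen s) W
    have := (fwdFlow_spec hV hf hs hs1 y).cont _ (right_mem_Icc.2 (fwdLen_nonneg s))
    fun_prop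
  · rw [dist_eq_norm, dist_eq_norm, NNReal.coe_one, one_mul]
    exact (midPt_contract hV hf hs hs1 a b W).trans
      (mul_le_of_le_one_left (norm_nonneg _) (by linarith))

/-- The law of the bridge centre above the law at scale s. -/
noncomputable def midLaw (V : EE d → ℝ) (s : ℝ) : Measure (EE d) :=
  ((piS V s).prod (gam d)).map fun z => midPt V s z.1 z.2

lemma midLaw_prob (hV : Admissible V) (hf : FlowReg V s) (hs : 0 < s) (hs1 : s ≤ 1 / 16) :
    IsProbabilityMeasure (midLaw V s) := by
  have := piS_prob hV s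
  exact Measure.isProbabilityMeasure_map
    (midPt_continuous hV hf hs hs1).measurable.aemeasurable

/-- The bridge point above the law at scale s has the law at scale s/2. -/
theorem blur_midLaw (hV : Admissible V) (hf : FlowReg V s) (hs : 0 < s) (hs1 : s ≤ 1 / 16) :
    blurM (midLaw V s) (s / 6) = piS V (s / 2) := by
  have := piS_prob hV s
  set R := backLen s with hR
  set Z := ∫ x, inv_wt V x with hZ
  have hZ0 : 0 < Z := inv_Z_pos hV
  have hR2 : R ^ 2 = s / 2 := Real.sq_sqrt (by positivity)
  have hR0 : 0 < R := Real.sqrt_pos.2 (by positivity)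
  have hu : s - R ^ 2 = s / 2 := by rw [hR2]; ring
  have hu0 : 0 < s / 2 := by positivity
  have mm := (midPt_continuous hV hf hs hs1).measurable
  set F : EE d × EE d × EE d → EE d :=
    fun z => midPt V s z.1 z.2.1 + Real.sqrt (s / 6) • z.2.2 with hFdef
  have hF : Measurable F := by
    have h : Measurable fun z : EE d × EE d × EE d => midPt V s z.1 z.2.1 :=
      mm.comp (by fun_prop : Measurable fun z : EE d × EE d × EE d => (z.1, z.2.1))
    exact h.add (by fun_prop)
  have ha := measurePreserving_prodAssoc (piS V s) (gam d) (gam d)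
  have hL : blurM (midLaw V s) (s / 6) = ((piS V s).prod ((gam d).prod (gam d))).map F := by
    rw [blurM, midLaw, show gam d = (gam d).map id from Measure.map_id.symm,
      Measure.map_prod_map _ _ (by simpa using mm) measurable_id, Measure.map_id,
      Measure.map_map (by fun_prop) (by fun_prop), ← ha.map_eq,
      Measure.map_map hF ha.measurable]
    rfl
  rw [hL]
  refine Measure.ext fun B hB => ?_
  set g : EE d → ℝ≥0∞ := B.indicator fun z => ENNReal.ofReal (pdens V (s / 2) z / Z) with hg
  have hgm : Measurable g :=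
    (ENNReal.measurable_ofReal.comp ((continuous_pdens hV hu0).div_const _).measurable).indicator hB
  have hy : ∀ y, ENNReal.ofReal (pdens V s y / Z) *
      (gam d).prod (gam d) (Prod.mk y ⁻¹' (F ⁻¹' B)) = ∫⁻ ξ, g (y + R • ξ) ∂gam d := by
    intro y
    have h := fwdFlow_spec hV hf hs hs1 y
    have hl : fwdLen s ∈ Icc 0 (fwdLen s) := right_mem_Icc.2 (fwdLen_nonneg s)
    have hS : MeasurableSet {ξ : EE d | y + R • ξ ∈ B} := hB.preimage (by fun_prop)
    set a := R⁻¹ * (2 / 3 * fwdLen s) with hadef
    set b := R⁻¹ * Real.sqrt (s / 6) with hbdef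
    have hab : a ^ 2 + b ^ 2 = 1 := by
      rw [hadef, hbdef, mul_pow, mul_pow, mul_pow, inv_pow, hR2, fwdLen_sq hs.le,
        Real.sq_sqrt (by positivity)]
      field_simp
      ring
    have hRa : fwdLen s * a = R := by
      rw [hadef]
      field_simp
      rw [hR2, fwdLen_sq hs.le]
      ring
    have hE := (h.cont _ hl).measurable
    have e : (gam d).prod (gam d) (Prod.mk y ⁻¹' (F ⁻¹' B)) =
        post V s y R {ξ | y + R • ξ ∈ B} := by
      rw [← bridge_law hV y (by rw [fwdLen_sq hs.le]; linarith) hab hRa hE (h.law _ hl),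
        Measure.map_apply (by fun_prop) hS]
      congr 1
      ext p
      simp [F, midPt, a, b, smul_add, smul_smul, ← mul_assoc, mul_inv_cancel₀ hR0.ne', add_assoc]
    rw [e, post, withDensity_apply _ hS, ← lintegral_indicator hS,
      ← lintegral_const_mul' _ _ ENNReal.ofReal_ne_top]
    refine lintegral_congr fun ξ => ?_
    by_cases hξ : y + R • ξ ∈ B
    · rw [indicator_of_mem (show ξ ∈ {ξ | y + R • ξ ∈ B} from hξ), hg, indicator_of_mem hξ,
        ← ENNReal.ofReal_mul (div_nonneg (pdens_nonneg _ _) hZ0.le), hu]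
      congr 1
      field_simp [(pdens_pos hV hs y).ne']
    · rw [indicator_of_notMem (show ξ ∉ {ξ | y + R • ξ ∈ B} from hξ), hg, indicator_of_notMem hξ,
        mul_zero]
  have hD : Measurable fun y => ENNReal.ofReal (pdens V s y / ∫ x, inv_wt V x) :=
    ENNReal.measurable_ofReal.comp ((continuous_pdens hV hs).div_const _).measurable
  rw [piS, piS, blurM, blurM, gibbs_blur hV hu0, Measure.map_apply hF hB,
    Measure.prod_apply (hF hB), gibbs_blur hV hs, lintegral_withDensity_eq_lintegral_mul _ hD
      (measurable_measure_prodMk_left (hF hB)), withDensity_apply _ hB,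
    ← lintegral_indicator hB]
  simp only [Pi.mul_apply, ← hZ, hy]
  have hm2 : AEMeasurable (Function.uncurry fun (y ξ : EE d) => g (y + R • ξ))
      (volume.prod (gam d)) :=
    (hgm.comp (by fun_prop : Measurable fun p : EE d × EE d => p.1 + R • p.2)).aemeasurable
  rw [lintegral_lintegral_swap hm2]
  simp only [lintegral_add_right_eq_self g]
  simp [g]

/-- An independent Gaussian of variance b adds b to the variance. -/
theorem blurM_blurM (μ : Measure (EE d)) [IsProbabilityMeasure μ] {a b : ℝ} (ha : 0 ≤ a)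
    (hb : 0 < b) : blurM (blurM μ a) b = blurM μ (a + b) := by
  have hc : 0 < Real.sqrt (a + b) := Real.sqrt_pos.2 (by linarith)
  set α := Real.sqrt a / Real.sqrt (a + b)
  set β := Real.sqrt b / Real.sqrt (a + b)
  have h1 : α ^ 2 + β ^ 2 = 1 := by
    simp only [α, β, div_pow, Real.sq_sqrt ha, Real.sq_sqrt hb.le,
      Real.sq_sqrt (by linarith : 0 ≤ a + b)]
    field_simp
  have hF : Measurable fun p : EE d × EE d => p.1 + Real.sqrt a • p.2 := by fun_prop
  have hG : Measurable fun z : EE d × EE d => α • z.1 + β • z.2 := by fun_prop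
  have ha' := measurePreserving_prodAssoc μ (gam d) (gam d)
  rw [blurM, blurM, blurM, show (gam d) = (gam d).map id from Measure.map_id.symm,
    Measure.map_prod_map _ _ hF measurable_id]
  simp only [Measure.map_id]
  rw [Measure.map_map (by fun_prop) (by fun_prop)]
  conv_rhs => rw [← Measure.map_id (μ := μ), ← gam_combine α β h1,
    Measure.map_prod_map _ _ measurable_id hG, Measure.map_map (by fun_prop) (by fun_prop),
    ← ha'.map_eq, Measure.map_map (by fun_prop) ha'.measurable]
  congr 1
  funext z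
  simp only [Function.comp_apply, Prod.map, id, MeasurableEquiv.prodAssoc, MeasurableEquiv.coe_mk,
    Equiv.prodAssoc_apply, smul_add, smul_smul, α, β, mul_div_cancel₀ _ hc.ne']
  abel

/-- The bridge point with extra noise. -/
theorem blur_mid_ge (hV : Admissible V) (hf : FlowReg V s) (hs : 0 < s) (hs1 : s ≤ 1 / 16) {v : ℝ}
    (hv : s / 6 ≤ v) : blurM (midLaw V s) v = piS V (s / 3 + v) := by
  rcases eq_or_lt_of_le hv with h | h
  · rw [← h, show s / 3 + s / 6 = s / 2 by ring]
    exact blur_midLaw hV hf hs hs1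
  · have := midLaw_prob hV hf hs hs1
    have := gibbs_prob hV
    have e := blurM_blurM (midLaw V s) (a := s / 6) (by positivity) (sub_pos.2 h)
    rw [add_sub_cancel] at e
    rw [← e, blur_midLaw hV hf hs hs1, piS, piS, blurM_blurM _ (by positivity) (sub_pos.2 h)]
    congr 1
    ring

/-- The second moment at scale s ≤ 1. -/
theorem piS_moment (hV : Admissible V) (hs1 : s ≤ 1) :
    eLpNorm id 2 (piS V s) ≤ ENNReal.ofReal (2 * Real.sqrt d) := by
  have := gibbs_prob hV
  obtain ⟨i1, m1⟩ := gibbs_moment hV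
  have hd : (0 : ℝ) ≤ d := Nat.cast_nonneg d
  have bd : ∀ (μ : Measure (EE d)), Integrable (fun x => ‖x‖ ^ 2) μ →
      ∫ x, ‖x‖ ^ 2 ∂μ ≤ d → eLpNorm id 2 μ ≤ ENNReal.ofReal (Real.sqrt d) := fun μ hi hm => by
    refine eLp_of_sq (Real.sqrt_nonneg _) ?_
    simp only [id]
    rw [← ofReal_integral_eq_lintegral_ofReal hi (ae_of_all _ fun x => sq_nonneg _),
      Real.sq_sqrt hd]
    exact ENNReal.ofReal_le_ofReal hm
  have m2 := bd (gam d) (inv_pow_gam 2) (by rw [second_moment, finrank_euclideanSpace_fin])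
  have hm : Measurable fun p : EE d × EE d => p.1 + Real.sqrt s • p.2 := by fun_prop
  rw [piS, blurM, eLpNorm_map_measure aestronglyMeasurable_id hm.aemeasurable, Function.id_comp]
  refine (eLpNorm_add_le (f := Prod.fst) (g := fun p : EE d × EE d => Real.sqrt s • p.2)
    (by fun_prop) (by fun_prop) one_le_two).trans ?_
  rw [two_mul, ENNReal.ofReal_add (Real.sqrt_nonneg _) (Real.sqrt_nonneg _)]
  refine add_le_add ?_ ?_
  · exact (eLpNorm_comp_measurePreserving (g := id) aestronglyMeasurable_id
      (measurePreserving_fst (μ := gibbs V) (ν := gam d))).trans_le (bd _ i1 m1)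
  · refine (eLpNorm_const_smul_le (c := Real.sqrt s) (f := Prod.snd)).trans ?_
    calc ‖Real.sqrt s‖ₑ * eLpNorm (Prod.snd : EE d × EE d → EE d) 2 ((gibbs V).prod (gam d))
        ≤ 1 * eLpNorm (Prod.snd : EE d × EE d → EE d) 2 ((gibbs V).prod (gam d)) := by
          gcongr
          rw [← ofReal_norm, Real.norm_of_nonneg (Real.sqrt_nonneg _)]
          exact ENNReal.ofReal_le_one.2 (Real.sqrt_le_one.2 hs1)
      _ ≤ _ := by
          rw [one_mul]
          exact (eLpNorm_comp_measurePreserving (g := id) aestronglyMeasurable_id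
            (measurePreserving_snd (μ := gibbs V) (ν := gam d))).trans_le m2

end Vale.Agent.P347.Zero
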