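import Vale.Agent.P347.Zero.Sampler.Final
import Vale.Agent.P347.Zero.Bridge.Basics
import Vale.Agent.P347.MainParams

/-!
The schedule: mixing steps at scale d^(-δ), then halving stages down to d^(-10).
-/

open MeasureTheory Filter

namespace Vale.Agent.P347.Zero

lemma eventually_log_le (C : ℝ) {δ : ℝ} (hC : 0 < C) (hδ : 0 < δ) :
    ∀ᶠ d : ℕ in atTop, C * Real.log d ≤ (d : ℝ) ^ δ := by
  have h := (isLittleO_log_rpow_atTop hδ).bound (inv_pos.2 hC)
  filter_upwards [tendsto_natCast_atTop_atTop.eventually h] with d hd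
  rw [Real.norm_of_nonneg (Real.log_natCast_nonneg d),
    Real.norm_of_nonneg (Real.rpow_nonneg d.cast_nonneg _), ← div_eq_inv_mul,
    le_div_iff₀' hC] at hd
  exact hd

/-- The final error. -/
lemma err_final {D τ E₀ K : ℝ} (hD : 4096 ≤ D) (hlo : (D ^ 6)⁻¹ ≤ Real.sqrt τ)
    (hhi : τ ≤ (D ^ 10)⁻¹) (hE₀ : E₀ ≤ 2 * (D ^ 19)⁻¹)
    (hK : K ≤ 6 * (D ^ 17)⁻¹) :
    (E₀ + K) / Real.sqrt τ + 2 * D * Real.sqrt (2 * τ) ≤ 1 / 10 := by
  have hD1 : 1 ≤ D := by linarith
  have hD0 : 0 < D := by linarith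
  have hinv : ∀ a : ℕ, a ≠ 0 → (D ^ a)⁻¹ ≤ 1 / 4096 := fun a ha => by
    rw [one_div]; exact inv_anti₀ (by norm_num) (hD.trans (le_self_pow₀ hD1 ha))
  have hE : E₀ + K ≤ 8 * (D ^ 17)⁻¹ := by
    have h2 : (D ^ 19)⁻¹ ≤ (D ^ 17)⁻¹ :=
      inv_anti₀ (by positivity) (pow_le_pow_right₀ hD1 (by norm_num))
    linarith
  have hs2 : Real.sqrt (2 * τ) ≤ 2 * (D ^ 5)⁻¹ := by
    rw [Real.sqrt_le_iff]
    refine ⟨by positivity, ?_⟩
    rw [mul_pow, inv_pow, ← pow_mul]
    linarith [inv_nonneg.2 (pow_nonneg hD0.le 10)]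
  have hb1 : (E₀ + K) / Real.sqrt τ ≤ 8 * (D ^ 11)⁻¹ := by
    calc (E₀ + K) / Real.sqrt τ ≤ 8 * (D ^ 17)⁻¹ / (D ^ 6)⁻¹ :=
          div_le_div₀ (by positivity) hE (by positivity) hlo
      _ = 8 * (D ^ 11)⁻¹ := by field_simp
  have hb2 : 2 * D * Real.sqrt (2 * τ) ≤ 4 * (D ^ 4)⁻¹ := by
    calc 2 * D * Real.sqrt (2 * τ) ≤ 2 * D * (2 * (D ^ 5)⁻¹) :=
          mul_le_mul_of_nonneg_left hs2 (by positivity)
      _ = 4 * (D ^ 4)⁻¹ := by field_simp; ring
  linarith [hinv 11 (by norm_num), hinv 4 (by norm_num)]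

/-- Steps of polynomially small error give algorithms with d^γ queries, for every γ > 0. -/
theorem samples_of_steps (hstep : HStep) {γ : ℝ} (hγ : 0 < γ) :
    ∀ᶠ d : ℕ in atTop, ∃ q : ℕ, (q : ℝ) ≤ (d : ℝ) ^ γ ∧ Samples d q := by
  set δ := min (γ / 4) (1 / 2) with hδdef
  have hδ : 0 < δ := lt_min (by linarith) (by norm_num)
  have hδγ : 3 * δ ≤ γ := by linarith [min_le_left (γ / 4) (1 / 2 : ℝ)]
  have hδ1 : δ ≤ 1 / 2 := min_le_right _ _
  filter_upwards [hstep δ hδ 20, eventually_ge_atTop 4096,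
    eventually_log_le 200 (by norm_num) hδ,
    ((tendsto_rpow_atTop hδ).comp tendsto_natCast_atTop_atTop).eventually_ge_atTop 16]
    with d hd hd4 hlog hd16
  have hD4 : (4096 : ℝ) ≤ d := by exact_mod_cast hd4
  set D := (d : ℝ) with hDdef
  have hD1 : 1 ≤ D := by linarith
  have hD0 : 0 < D := by linarith
  set P := D ^ δ with hP
  have hP0 : 0 < P := Real.rpow_pos_of_pos hD0 _
  have hP16 : 16 ≤ P := hd16
  have hPD : P ≤ D :=
    (Real.rpow_le_rpow_of_exponent_le hD1 (by linarith)).trans_eq (Real.rpow_one D)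
  set L := Real.log D with hL
  have hL1 : 1 ≤ L := by
    rw [hL, ← Real.log_exp 1]
    exact Real.log_le_log (Real.exp_pos 1) (by linarith [Real.exp_one_lt_three])
  set s0 := D ^ (-δ) with hs0
  have hs0' : s0 = P⁻¹ := Real.rpow_neg hD0.le δ
  have hs0p : 0 < s0 := by rw [hs0']; positivity
  have hs16 : s0 ≤ 1 / 16 := by rw [hs0', one_div]; exact inv_anti₀ (by norm_num) hP16
  set T := ⌈160 * L * P⌉₊ with hTdef
  set n := 10 * blen d with hndef
  have hT : (T : ℝ) ≤ 160 * L * P + 1 := (Nat.ceil_lt_add_one (by positivity)).le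
  have hn : (n : ℝ) ≤ 30 * L := by
    have h2 : ((2 : ℝ) ^ blen d) ≤ 2 * D := by
      rw [hDdef]; exact_mod_cast two_pow_blen_le (by omega : 1 ≤ d)
    have h := Real.log_le_log (by positivity) h2
    rw [Real.log_pow, Real.log_mul two_ne_zero hD0.ne', ← hL] at h
    have h3 := Real.log_two_gt_d9
    have h4 := Real.log_two_lt_d9
    rw [hndef]; push_cast
    nlinarith
  have hTn : (T : ℝ) + n ≤ P * P := by
    calc (T : ℝ) + n ≤ 160 * L * P + 1 + 30 * L := add_le_add hT hn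
      _ ≤ 200 * L * P := by nlinarith
      _ ≤ P * P := mul_le_mul_of_nonneg_right hlog hP0.le
  have hTn2 : (T : ℝ) + n ≤ D ^ 2 := hTn.trans (by nlinarith)
  set η := (D ^ 20)⁻¹ * (1 + 2 * Real.sqrt D + (2 * Real.sqrt D + 1)) with hη
  have hη0 : 0 ≤ η := by positivity
  have hη19 : η ≤ 6 * (D ^ 19)⁻¹ := by
    have hs : Real.sqrt D ≤ D := Real.sqrt_le_iff.2 ⟨hD0.le, by nlinarith⟩
    calc η ≤ (D ^ 20)⁻¹ * (6 * D) := mul_le_mul_of_nonneg_left (by linarith) (by positivity)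
      _ = _ := by field_simp
  have hkη : ∀ k : ℕ, (k : ℝ) ≤ T + n → (k : ℝ) * η ≤ 6 * (D ^ 17)⁻¹ := fun k hk => by
    calc (k : ℝ) * η ≤ D ^ 2 * (6 * (D ^ 19)⁻¹) :=
          mul_le_mul (hk.trans hTn2) hη19 hη0 (by positivity)
      _ = _ := by field_simp
  have h17 : 6 * (D ^ 17)⁻¹ ≤ 1 := by
    rw [← div_eq_mul_inv, div_le_one (by positivity)]
    nlinarith [le_self_pow₀ hD1 (by norm_num : 17 ≠ 0)]
  -- one step at any scale in range
  have step : ∀ (s : ℝ), (D ^ 12)⁻¹ ≤ s → s ≤ s0 → ∀ (q : ℕ) (E : ℝ), Reach d s q E → 0 ≤ E →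
      E ≤ 2 * Real.sqrt D + 1 → ∀ κ : ℝ, Real.sqrt (s / 6) ≤ κ →
        ∃ q' : ℕ, (q' : ℝ) ≤ q + P ∧
          Reach d (s / 3 + κ ^ 2) q' ((1 - s / 8) * E + η) := by
    intro s h1 h2 q E hR hE hE1 κ hκ
    obtain ⟨q', hq', hsim⟩ := hd s h1 h2
    have hs : 0 < s := lt_of_lt_of_le (by positivity) h1
    refine ⟨q + q', by push_cast; linarith, (hR.step hE (by positivity)
      (fun V hV => flowReg hV hs (h2.trans hs16)) hs (h2.trans hs16) hsim hκ).mono ?_⟩
    rw [hη]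
    gcongr
  have hs12 : ∀ j ≤ n, (D ^ 12)⁻¹ ≤ s0 / 2 ^ j ∧ s0 / 2 ^ j ≤ s0 := fun j hj => by
    refine ⟨?_, div_le_self hs0p.le (one_le_pow₀ one_le_two)⟩
    rw [hs0', div_eq_mul_inv, ← mul_inv]
    refine inv_anti₀ (by positivity) ?_
    calc P * 2 ^ j ≤ D * (2 * D) ^ 10 := by
          refine mul_le_mul hPD ?_ (by positivity) hD0.le
          calc (2 : ℝ) ^ j ≤ 2 ^ n := pow_le_pow_right₀ one_le_two hj
            _ = ((2 : ℝ) ^ blen d) ^ 10 := by rw [← pow_mul, hndef, mul_comm]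
            _ ≤ (2 * D) ^ 10 := pow_le_pow_left₀ (by positivity)
                (by rw [hDdef]; exact_mod_cast two_pow_blen_le (by omega : 1 ≤ d)) 10
      _ = 1024 * D ^ 11 := by ring
      _ ≤ D * D ^ 11 := mul_le_mul_of_nonneg_right (by linarith) (by positivity)
      _ = _ := by ring
  set c := 1 - s0 / 8 with hc
  have hc0 : 0 ≤ c := by linarith
  have hc1 : c ≤ 1 := by linarith
  -- mixing
  have mix : ∀ k ≤ T, ∃ q : ℕ, (q : ℝ) ≤ k * P ∧
      Reach d s0 q (c ^ k * (2 * Real.sqrt D) + k * η) := by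
    intro k
    induction k with
    | zero => exact fun _ => ⟨0, by simp, by simpa using reach_zero d (by linarith : s0 ≤ 1)⟩
    | succ k ih =>
      intro hk
      obtain ⟨q, hq, hR⟩ := ih (by omega)
      have hE1 : c ^ k * (2 * Real.sqrt D) + k * η ≤ 2 * Real.sqrt D + 1 :=
        add_le_add (mul_le_of_le_one_left (by positivity) (pow_le_one₀ hc0 hc1))
          ((hkη k (by
            have : (k : ℝ) ≤ T := by exact_mod_cast (by omega : k ≤ T)
            linarith [(Nat.cast_nonneg n : (0 : ℝ) ≤ n)])).trans h17)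
      have hs3 : Real.sqrt (s0 / 6) ≤ Real.sqrt (2 * s0 / 3) := Real.sqrt_le_sqrt (by linarith)
      have h0 : (0 : ℝ) ≤ c ^ k * (2 * Real.sqrt D) + k * η := by positivity
      obtain ⟨q', hq', hR'⟩ := step s0 (by simpa using (hs12 0 (Nat.zero_le _)).1) le_rfl q _ hR h0
        hE1 _ hs3
      rw [Real.sq_sqrt (by positivity : (0 : ℝ) ≤ 2 * s0 / 3),
        show s0 / 3 + 2 * s0 / 3 = s0 by ring] at hR'
      refine ⟨q', by push_cast; linarith, hR'.mono ?_⟩
      rw [← hc, pow_succ]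
      push_cast
      have : c * ((k : ℝ) * η) ≤ k * η := mul_le_of_le_one_left (by positivity) hc1
      linarith
  obtain ⟨q₁, hq₁, hR₁⟩ := mix T le_rfl
  have hcT : c ^ T * (2 * Real.sqrt D) ≤ 2 * (D ^ 19)⁻¹ := by
    have h1 : c ^ T ≤ (D ^ 20)⁻¹ := by
      calc c ^ T ≤ Real.exp (-(s0 / 8)) ^ T :=
            pow_le_pow_left₀ hc0 (by linarith [Real.add_one_le_exp (-(s0 / 8))]) _
        _ = Real.exp (T * -(s0 / 8)) := (Real.exp_nat_mul _ _).symm
        _ ≤ Real.exp (-(20 * L)) := by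
            refine Real.exp_le_exp.2 ?_
            have h := mul_le_mul_of_nonneg_right (Nat.le_ceil (160 * L * P)) hs0p.le
            rw [← hTdef] at h
            have e : 160 * L * P * s0 = 160 * L := by rw [hs0']; field_simp
            linarith
        _ = _ := by
            rw [Real.exp_neg, show (20 : ℝ) = ((20 : ℕ) : ℝ) by norm_num, Real.exp_nat_mul, hL,
              Real.exp_log hD0]
    calc c ^ T * (2 * Real.sqrt D) ≤ (D ^ 20)⁻¹ * (2 * D) :=
          mul_le_mul h1 (mul_le_mul_of_nonneg_left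
            (Real.sqrt_le_iff.2 ⟨hD0.le, by nlinarith⟩) zero_le_two) (by positivity) (by positivity)
      _ = _ := by field_simp
  -- stages
  set E₀ := c ^ T * (2 * Real.sqrt D) with hE₀
  have hE₀0 : 0 ≤ E₀ := by positivity
  have stage : ∀ j ≤ n, ∃ q : ℕ, (q : ℝ) ≤ (T + j : ℕ) * P ∧
      Reach d (s0 / 2 ^ j) q (E₀ + (T + j : ℕ) * η) := by
    intro j
    induction j with
    | zero => exact fun _ => ⟨q₁, by simpa using hq₁, by simpa using hR₁⟩
    | succ j ih =>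
      intro hj
      obtain ⟨q, hq, hR⟩ := ih (by omega)
      obtain ⟨hs1, hs2⟩ := hs12 j (by omega)
      have hs : 0 < s0 / 2 ^ j := by positivity
      have hk := hkη (T + j) (by exact_mod_cast (by omega : T + j ≤ T + n))
      have hE1 : E₀ + (T + j : ℕ) * η ≤ 2 * Real.sqrt D + 1 :=
        add_le_add (mul_le_of_le_one_left (by positivity) (pow_le_one₀ hc0 hc1)) (hk.trans h17)
      obtain ⟨q', hq', hR'⟩ := step _ hs1 hs2 q _ hR (by positivity) hE1 _ le_rfl
      rw [Real.sq_sqrt (by positivity : (0 : ℝ) ≤ s0 / 2 ^ j / 6),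
        show s0 / 2 ^ j / 3 + s0 / 2 ^ j / 6 = s0 / 2 ^ (j + 1) by rw [pow_succ]; ring] at hR'
      refine ⟨q', by push_cast at hq ⊢; linarith, hR'.mono ?_⟩
      have hE : (1 - s0 / 2 ^ j / 8) * (E₀ + (T + j : ℕ) * η) ≤ E₀ + (T + j : ℕ) * η :=
        mul_le_of_le_one_left (by positivity) (by linarith)
      push_cast at hE ⊢
      linarith
  obtain ⟨q, hq, hR⟩ := stage n le_rfl
  set τ := s0 / 2 ^ n with hτ
  have hτ0 : 0 < τ := by positivity
  have hτlo : ((D ^ 6)⁻¹) ≤ Real.sqrt τ := by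
    rw [Real.le_sqrt (by positivity) hτ0.le, inv_pow, ← pow_mul]
    exact (hs12 n le_rfl).1
  have hτhi : τ ≤ (D ^ 10)⁻¹ := by
    calc τ ≤ 1 / 2 ^ n := div_le_div_of_nonneg_right (by linarith) (by positivity)
      _ ≤ _ := by
        rw [one_div, hndef, mul_comm, pow_mul]
        refine inv_anti₀ (by positivity) (pow_le_pow_left₀ hD0.le ?_ 10)
        rw [hDdef]; exact_mod_cast (lt_two_pow_blen d).le
  refine ⟨q, ?_, hR.samples (by positivity) hτ0 ?_⟩
  · calc (q : ℝ) ≤ (T + n : ℕ) * P := hq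
      _ ≤ P * P * P := mul_le_mul_of_nonneg_right (by push_cast; exact hTn) hP0.le
      _ = D ^ (3 * δ) := by
          rw [hP, mul_comm 3 δ, Real.rpow_mul hD0.le, show (3 : ℝ) = ((3 : ℕ) : ℝ) by norm_num,
            Real.rpow_natCast]
          ring
      _ ≤ D ^ γ := Real.rpow_le_rpow_of_exponent_le hD1 hδγ
  · exact err_final hD4 hτlo hτhi hcT (hkη (T + n) (by push_cast; exact le_rfl))

/-- The dimension exponent is zero. -/
theorem gammaStar_eq_zero_of_steps (hstep : HStep) : gammaStar = 0 := by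
  refine le_antisymm (le_of_forall_gt_imp_ge_of_dense fun x hx => ?_) ?_
  · obtain ⟨γ, hγ, hγx⟩ := EReal.lt_iff_exists_real_btwn.1 hx
    refine le_trans ?_ hγx.le
    have hγ0 : 0 < γ := EReal.coe_pos.1 hγ
    refine limsup_le_of_le (by isBoundedDefault) ?_
    filter_upwards [samples_of_steps hstep hγ0, eventually_ge_atTop 2] with d hd hd2
    obtain ⟨q, hqb, hq⟩ := hd
    rw [EReal.coe_le_coe_iff]
    have hd1 : (1 : ℝ) < d := by exact_mod_cast hd2
    rw [div_le_iff₀ (Real.log_pos hd1)]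
    rcases Nat.eq_zero_or_pos (queryCount d) with h0 | h0
    · rw [h0, Nat.cast_zero, Real.log_zero]
      exact mul_nonneg hγ0.le (Real.log_pos hd1).le
    · have hle : (queryCount d : ℝ) ≤ (d : ℝ) ^ γ :=
        le_trans (by exact_mod_cast Nat.sInf_le (show q ∈ {q | Samples d q} from hq)) hqb
      exact (Real.log_le_log (by exact_mod_cast h0) hle).trans_eq (Real.log_rpow (by linarith) γ)
  · refine le_limsup_of_frequently_le (Frequently.of_forall fun d => ?_) (by isBoundedDefault)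
    exact EReal.coe_nonneg.2
      (div_nonneg (Real.log_natCast_nonneg _) (Real.log_natCast_nonneg _))

end Vale.Agent.P347.Zero
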